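import Mathlib
import Vale.Agent.P226.Main

open MeasureTheory ProbabilityTheory

/-- The Gaussian propeller conjecture (Khot-Naor): for every dimension `d`, every number `k` of
cells and every measurable partition (up to null sets) of Euclidean `d`-space into `k` cells, the
sum of the squared lengths of the Gaussian first moments of the cells is at most `9 / (8 π)`.
Here `stdGaussian` is the standard Gaussian probability measure of Mathlib. -/
theorem Vale.Agent.Results.P226.Propeller.result (d k : ℕ)
    (A : Fin k → Set (EuclideanSpace ℝ (Fin d)))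
    (hmeas : ∀ i, NullMeasurableSet (A i) (stdGaussian (EuclideanSpace ℝ (Fin d))))
    (hdisj : ∀ i j, i ≠ j → stdGaussian (EuclideanSpace ℝ (Fin d)) (A i ∩ A j) = 0)
    (hcover : stdGaussian (EuclideanSpace ℝ (Fin d)) (⋃ i, A i)ᶜ = 0) :
    ∑ i, ‖∫ x in A i, x ∂stdGaussian (EuclideanSpace ℝ (Fin d))‖ ^ 2 ≤ 9 / (8 * Real.pi) := by
  set μ := stdGaussian (EuclideanSpace ℝ (Fin d)) with hμ
  have he : ∀ i, toMeasurable μ (A i) =ᵐ[μ] A i := fun i => (hmeas i).toMeasurable_ae_eq
  have h := Vale.Agent.P226.propeller (B := fun i => toMeasurable μ (A i))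
    (fun i => measurableSet_toMeasurable _ _)
    (fun i j hij => by
      change μ (toMeasurable μ (A i) ∩ toMeasurable μ (A j)) = 0
      rw [measure_congr ((he i).inter (he j))]
      exact hdisj i j hij)
    (by
      rw [ae_eq_univ]
      refine measure_mono_null (Set.compl_subset_compl.2 ?_) hcover
      exact Set.iUnion_mono fun i => subset_toMeasurable _ _)
  simpa only [← hμ, setIntegral_congr_set (he _)] using h
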